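import Vale.Agent.P227.M.ID.Pos

/-!
# P227, route TG: pointwise linear algebra for the absorption lemma (ROB)
-/

namespace Vale.Agent.P227.M.TG

open Finset Matrix Vale.Agent.P227.M.ID

variable {n : ℕ}

/-- quadratic form of a matrix -/
def qm (M : Matrix (Fin n) (Fin n) ℝ) (v : Fin n → ℝ) : ℝ := ∑ a, ∑ b, M a b * v a * v b

theorem psd_of {M : Matrix (Fin n) (Fin n) ℝ} (hs : ∀ a b, M a b = M b a) (h : ∀ v, 0 ≤ qm M v) :
    M.PosSemidef := by
  refine Matrix.PosSemidef.of_dotProduct_mulVec_nonneg ?_ fun v => ?_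
  · ext a b
    simp [Matrix.conjTranspose_apply, hs a b]
  · refine (h v).trans_eq ?_
    simp only [qm, star_trivial, dotProduct, mulVec, Finset.mul_sum]
    exact Finset.sum_congr rfl fun a _ => Finset.sum_congr rfl fun b _ => by ring

theorem qm_sub_smul_one (M : Matrix (Fin n) (Fin n) ℝ) (c : ℝ) (v : Fin n → ℝ) :
    qm (M - c • (1 : Matrix (Fin n) (Fin n) ℝ)) v = qm M v - c * ∑ a, v a ^ 2 := by
  have e : ∀ a, ∑ b, (M - c • (1 : Matrix (Fin n) (Fin n) ℝ)) a b * v a * v b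
      = ∑ b, M a b * v a * v b - c * v a ^ 2 := by
    intro a
    have e1 : ∀ b, (M - c • (1 : Matrix (Fin n) (Fin n) ℝ)) a b * v a * v b
        = M a b * v a * v b - (if a = b then c * v a ^ 2 else 0) := by
      intro b
      rw [Matrix.sub_apply, Matrix.smul_apply, Matrix.one_apply, smul_eq_mul]
      split_ifs with h
      · subst h; ring
      · ring
    rw [Finset.sum_congr rfl fun b _ => e1 b, Finset.sum_sub_distrib]
    simp
  unfold qm
  rw [Finset.sum_congr rfl fun a _ => e a, Finset.sum_sub_distrib, Finset.mul_sum]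

theorem psd_sub {M : Matrix (Fin n) (Fin n) ℝ} {c : ℝ} (hs : ∀ a b, M a b = M b a)
    (h : ∀ v : Fin n → ℝ, c * ∑ a, v a ^ 2 ≤ qm M v) :
    (M - c • (1 : Matrix (Fin n) (Fin n) ℝ)).PosSemidef := by
  refine psd_of ?_ fun v => ?_
  · intro a b
    rw [Matrix.sub_apply, Matrix.sub_apply, Matrix.smul_apply, Matrix.smul_apply, hs a b,
      Matrix.one_apply, Matrix.one_apply]
    by_cases hab : a = b
    · subst hab; rfl
    · rw [if_neg hab, if_neg (Ne.symm hab)]
  · rw [qm_sub_smul_one]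
    linarith [h v]

theorem psd_of_lo {M : Matrix (Fin n) (Fin n) ℝ} {c : ℝ} (hc : 0 ≤ c) (hs : ∀ a b, M a b = M b a)
    (h : ∀ v : Fin n → ℝ, c * ∑ a, v a ^ 2 ≤ qm M v) : M.PosSemidef :=
  psd_of hs fun v => le_trans (mul_nonneg hc (Finset.sum_nonneg fun _ _ => sq_nonneg _)) (h v)

theorem trace_lo {M Q : Matrix (Fin n) (Fin n) ℝ} {c : ℝ} (hs : ∀ a b, M a b = M b a)
    (h : ∀ v : Fin n → ℝ, c * ∑ a, v a ^ 2 ≤ qm M v) (hQ : Q.PosSemidef) :
    c * Q.trace ≤ (M * Q).trace := by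
  have := trace_mul_nonneg (psd_sub hs h) hQ
  rw [Matrix.sub_mul, Matrix.smul_mul, Matrix.one_mul, trace_sub, trace_smul, smul_eq_mul] at this
  linarith

theorem trace_sq_eq {S : Matrix (Fin n) (Fin n) ℝ} (hS : ∀ a b, S a b = S b a) :
    (S * S).trace = ∑ a, ∑ b, S a b ^ 2 := by
  rw [trace_mul_sum]
  exact Finset.sum_congr rfl fun a _ => Finset.sum_congr rfl fun b _ => by rw [hS b a]; ring

theorem psd_conj {S σ : Matrix (Fin n) (Fin n) ℝ} (hS : ∀ a b, S a b = S b a) (hσ : σ.PosSemidef) :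
    (S * σ * S).PosSemidef := by
  have := hσ.conjTranspose_mul_mul_same S
  rwa [conjTranspose_eq_transpose_of_trivial, show Sᵀ = S from by ext a b; exact hS b a] at this

/-- `c² |S|² ≤ tr (σ S σ S)` -/
theorem F1 {σ S : Matrix (Fin n) (Fin n) ℝ} {c : ℝ} (hc : 0 ≤ c) (hs : ∀ a b, σ a b = σ b a)
    (h : ∀ v : Fin n → ℝ, c * ∑ a, v a ^ 2 ≤ qm σ v) (hS : ∀ a b, S a b = S b a) :
    c ^ 2 * ∑ a, ∑ b, S a b ^ 2 ≤ ((σ * S) * (σ * S)).trace := by
  have hp := psd_of_lo hc hs h
  have h1 := trace_lo hs h (psd_conj hS hp)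
  have h2 := trace_lo hs h (psd_conj hS (Matrix.PosSemidef.one (n := Fin n) (R := ℝ)))
  rw [Matrix.mul_one] at h2
  have e1 : (S * σ * S).trace = (σ * (S * S)).trace := by
    rw [Matrix.mul_assoc, trace_mul_comm, Matrix.mul_assoc]
  have e2 : (σ * (S * σ * S)).trace = ((σ * S) * (σ * S)).trace := by
    simp only [Matrix.mul_assoc]
  rw [trace_sq_eq hS] at h2
  rw [e1, e2] at h1
  calc c ^ 2 * ∑ a, ∑ b, S a b ^ 2 = c * (c * ∑ a, ∑ b, S a b ^ 2) := by ring
    _ ≤ c * (σ * (S * S)).trace := mul_le_mul_of_nonneg_left h2 hc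
    _ ≤ _ := h1

/-- `c0 c |K|² ≤ tr (H K σ K)` -/
theorem F2 {H σ K : Matrix (Fin n) (Fin n) ℝ} {c c0 : ℝ} (hc : 0 ≤ c) (hc0 : 0 ≤ c0)
    (hs : ∀ a b, σ a b = σ b a) (h : ∀ v : Fin n → ℝ, c * ∑ a, v a ^ 2 ≤ qm σ v)
    (hHs : ∀ a b, H a b = H b a) (hH : ∀ v : Fin n → ℝ, c0 * ∑ a, v a ^ 2 ≤ qm H v)
    (hK : ∀ a b, K a b = K b a) :
    c0 * c * ∑ a, ∑ b, K a b ^ 2 ≤ (H * (K * σ * K)).trace := by
  have hp := psd_of_lo hc hs h
  have h1 := trace_lo hHs hH (psd_conj hK hp)
  have h2 := trace_lo hs h (psd_conj hK (Matrix.PosSemidef.one (n := Fin n) (R := ℝ)))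
  rw [Matrix.mul_one, trace_sq_eq hK] at h2
  have e1 : (K * σ * K).trace = (σ * (K * K)).trace := by
    rw [Matrix.mul_assoc, trace_mul_comm, Matrix.mul_assoc]
  rw [e1] at h1
  calc c0 * c * ∑ a, ∑ b, K a b ^ 2 = c0 * (c * ∑ a, ∑ b, K a b ^ 2) := by ring
    _ ≤ c0 * (σ * (K * K)).trace := mul_le_mul_of_nonneg_left h2 hc0
    _ ≤ _ := h1

/-- upper bound of the entries -/
theorem entry_le {σ : Matrix (Fin n) (Fin n) ℝ} {C : ℝ} (hs : ∀ a b, σ a b = σ b a)
    (h0 : ∀ v, 0 ≤ qm σ v)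
    (h : ∀ v : Fin n → ℝ, qm σ v ≤ C * ∑ a, v a ^ 2) (a b : Fin n) : |σ a b| ≤ C := by
  have hd : ∀ a, 0 ≤ σ a a ∧ σ a a ≤ C := by
    intro a
    have e : qm σ (Pi.single a 1) = σ a a := by
      unfold qm
      rw [Finset.sum_eq_single a (by intro b _ hb; simp [hb]) (by simp)]
      rw [Finset.sum_eq_single a (by intro b _ hb; simp [hb]) (by simp)]
      simp
    have e2 : ∑ b, (Pi.single a (1 : ℝ) : Fin n → ℝ) b ^ 2 = 1 := by
      rw [Finset.sum_eq_single a (by intro b _ hb; simp [Pi.single_apply, hb]) (by simp)]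
      simp
    have h1 := h0 (Pi.single a 1)
    have h2 := h (Pi.single a 1)
    rw [e] at h1 h2
    rw [e2] at h2
    exact ⟨h1, by linarith⟩
  by_cases hab : a = b
  · subst hab
    rw [abs_of_nonneg (hd a).1]
    exact (hd a).2
  · have e : ∀ t : ℝ, qm σ (Pi.single a 1 + t • Pi.single b 1)
        = σ a a + 2 * t * σ a b + t ^ 2 * σ b b := by
      intro t
      unfold qm
      have hv : ∀ i, (Pi.single a 1 + t • Pi.single b 1 : Fin n → ℝ) i
          = (if i = a then 1 else 0) + t * (if i = b then 1 else 0) := by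
        intro i
        simp [Pi.single_apply]
      simp_rw [hv]
      have e1 : ∀ i j, σ i j * ((if i = a then (1 : ℝ) else 0) + t * (if i = b then 1 else 0))
          * ((if j = a then (1 : ℝ) else 0) + t * (if j = b then 1 else 0))
          = (if i = a then (if j = a then σ i j else 0) else 0)
            + t * (if i = a then (if j = b then σ i j else 0) else 0)
            + t * (if i = b then (if j = a then σ i j else 0) else 0)
            + t ^ 2 * (if i = b then (if j = b then σ i j else 0) else 0) := by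
        intro i j
        split_ifs <;> ring
      simp_rw [e1]
      simp only [Finset.sum_add_distrib, ← Finset.mul_sum]
      have e2 : ∀ a b : Fin n, ∑ x, ∑ x_1, (if x = a then (if x_1 = b then σ x x_1 else 0) else 0)
          = σ a b := by
        intro a b
        rw [Finset.sum_eq_single a (by intro i _ hi; simp [hi]) (by simp)]
        simp
      rw [e2, e2, e2, e2, hs b a]
      ring
    have h1 := h0 (Pi.single a 1 + (1 : ℝ) • Pi.single b 1)
    have h2 := h0 (Pi.single a 1 + (-1 : ℝ) • Pi.single b 1)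
    rw [e] at h1 h2
    rw [abs_le]
    constructor <;> nlinarith [(hd a).1, (hd a).2, (hd b).1, (hd b).2]

/-- three-tensor form -/
def tf (α β γ : Matrix (Fin n) (Fin n) ℝ) (X : Fin n → Fin n → Fin n → ℝ) : ℝ :=
  ∑ a, ∑ b, ∑ c, ∑ a', ∑ b', ∑ c', α a a' * β b b' * γ c c' * X a b c * X a' b' c'

theorem tf_sub1 (α α' β γ : Matrix (Fin n) (Fin n) ℝ) (X : Fin n → Fin n → Fin n → ℝ) (c : ℝ) :
    tf (α - c • α') β γ X = tf α β γ X - c * tf α' β γ X := by
  unfold tf
  simp only [Finset.mul_sum, ← Finset.sum_sub_distrib]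
  refine Finset.sum_congr rfl fun a _ => Finset.sum_congr rfl fun b _ =>
    Finset.sum_congr rfl fun c _ => Finset.sum_congr rfl fun a' _ =>
    Finset.sum_congr rfl fun b' _ => Finset.sum_congr rfl fun c' _ => ?_
  simp only [Matrix.sub_apply, Matrix.smul_apply, smul_eq_mul]
  ring

theorem tf_sub2 (α β β' γ : Matrix (Fin n) (Fin n) ℝ) (X : Fin n → Fin n → Fin n → ℝ) (c : ℝ) :
    tf α (β - c • β') γ X = tf α β γ X - c * tf α β' γ X := by
  unfold tf
  simp only [Finset.mul_sum, ← Finset.sum_sub_distrib]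
  refine Finset.sum_congr rfl fun a _ => Finset.sum_congr rfl fun b _ =>
    Finset.sum_congr rfl fun c _ => Finset.sum_congr rfl fun a' _ =>
    Finset.sum_congr rfl fun b' _ => Finset.sum_congr rfl fun c' _ => ?_
  simp only [Matrix.sub_apply, Matrix.smul_apply, smul_eq_mul]
  ring

theorem tf_sub3 (α β γ γ' : Matrix (Fin n) (Fin n) ℝ) (X : Fin n → Fin n → Fin n → ℝ) (c : ℝ) :
    tf α β (γ - c • γ') X = tf α β γ X - c * tf α β γ' X := by
  unfold tf
  simp only [Finset.mul_sum, ← Finset.sum_sub_distrib]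
  refine Finset.sum_congr rfl fun a _ => Finset.sum_congr rfl fun b _ =>
    Finset.sum_congr rfl fun c _ => Finset.sum_congr rfl fun a' _ =>
    Finset.sum_congr rfl fun b' _ => Finset.sum_congr rfl fun c' _ => ?_
  simp only [Matrix.sub_apply, Matrix.smul_apply, smul_eq_mul]
  ring

theorem tf_one (X : Fin n → Fin n → Fin n → ℝ) : tf 1 1 1 X = ∑ a, ∑ b, ∑ c, X a b c ^ 2 := by
  unfold tf
  refine Finset.sum_congr rfl fun a _ => Finset.sum_congr rfl fun b _ =>
    Finset.sum_congr rfl fun c _ => ?_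
  rw [Finset.sum_eq_single a (by
    intro a' _ ha
    refine Finset.sum_eq_zero fun b' _ => Finset.sum_eq_zero fun c' _ => ?_
    rw [Matrix.one_apply_ne (Ne.symm ha)]; ring) (by simp)]
  rw [Finset.sum_eq_single b (by
    intro b' _ hb
    refine Finset.sum_eq_zero fun c' _ => ?_
    rw [Matrix.one_apply_ne (Ne.symm hb)]; ring) (by simp)]
  rw [Finset.sum_eq_single c (by
    intro c' _ hc
    rw [Matrix.one_apply_ne (Ne.symm hc)]; ring) (by simp)]
  simp only [Matrix.one_apply_eq]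
  ring

/-- lower bound of `σ ⊗ σ ⊗ τ` -/
theorem F3 {σ τ : Matrix (Fin n) (Fin n) ℝ} {c c' : ℝ} (hc : 0 ≤ c) (hc' : 0 ≤ c')
    (hs : ∀ a b, σ a b = σ b a) (h : ∀ v : Fin n → ℝ, c * ∑ a, v a ^ 2 ≤ qm σ v)
    (ht : ∀ a b, τ a b = τ b a) (h' : ∀ v : Fin n → ℝ, c' * ∑ a, v a ^ 2 ≤ qm τ v)
    (X : Fin n → Fin n → Fin n → ℝ) :
    c ^ 2 * c' * ∑ a, ∑ b, ∑ d, X a b d ^ 2 ≤ tf σ σ τ X := by
  have p1 := psd_of_lo hc hs h
  have p2 := psd_of_lo hc' ht h'
  have po := Matrix.PosSemidef.one (n := Fin n) (R := ℝ)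
  have h1 : 0 ≤ tf (σ - c • (1 : Matrix (Fin n) (Fin n) ℝ)) σ τ X :=
    tensor3_nonneg (psd_sub hs h) p1 p2 X
  have h2 : 0 ≤ tf 1 (σ - c • (1 : Matrix (Fin n) (Fin n) ℝ)) τ X :=
    tensor3_nonneg po (psd_sub hs h) p2 X
  have h3 : 0 ≤ tf 1 1 (τ - c' • (1 : Matrix (Fin n) (Fin n) ℝ)) X :=
    tensor3_nonneg po po (psd_sub ht h') X
  rw [tf_sub1] at h1
  rw [tf_sub2] at h2
  rw [tf_sub3, tf_one] at h3
  set Z := ∑ a, ∑ b, ∑ d, X a b d ^ 2
  calc c ^ 2 * c' * Z = c * (c * (c' * Z)) := by ring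
    _ ≤ c * (c * tf 1 1 τ X) := by
        refine mul_le_mul_of_nonneg_left (mul_le_mul_of_nonneg_left ?_ hc) hc
        linarith
    _ ≤ c * tf 1 σ τ X := mul_le_mul_of_nonneg_left (by linarith) hc
    _ ≤ tf σ σ τ X := by linarith

/-- bilinear form -/
def Bf (σ : Matrix (Fin n) (Fin n) ℝ) (X Y : Fin n → Fin n → Fin n → ℝ) : ℝ :=
  ∑ a, ∑ b, ∑ c, ∑ a', ∑ b', ∑ c', σ a a' * σ b b' * σ c c' * X a b c * Y a' b' c'

theorem Bf_swap23 (σ : Matrix (Fin n) (Fin n) ℝ) (X Y : Fin n → Fin n → Fin n → ℝ) :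
    Bf σ (fun a b c => X a c b) (fun a b c => Y a c b) = Bf σ X Y := by
  unfold Bf
  refine Finset.sum_congr rfl fun a _ => ?_
  rw [Finset.sum_comm]
  refine Finset.sum_congr rfl fun b _ => Finset.sum_congr rfl fun c _ =>
    Finset.sum_congr rfl fun a' _ => ?_
  rw [Finset.sum_comm]
  refine Finset.sum_congr rfl fun b' _ => Finset.sum_congr rfl fun c' _ => ?_
  ring

theorem Bf_swap12 (σ : Matrix (Fin n) (Fin n) ℝ) (X Y : Fin n → Fin n → Fin n → ℝ) :
    Bf σ (fun a b c => X b a c) (fun a b c => Y b a c) = Bf σ X Y := by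
  unfold Bf
  rw [Finset.sum_comm]
  refine Finset.sum_congr rfl fun a _ => Finset.sum_congr rfl fun b _ =>
    Finset.sum_congr rfl fun c _ => ?_
  rw [Finset.sum_comm]
  refine Finset.sum_congr rfl fun a' _ => Finset.sum_congr rfl fun b' _ =>
    Finset.sum_congr rfl fun c' _ => ?_
  ring

theorem Bf_add_left (σ : Matrix (Fin n) (Fin n) ℝ) (X X' Y : Fin n → Fin n → Fin n → ℝ) :
    Bf σ (fun a b c => X a b c + X' a b c) Y = Bf σ X Y + Bf σ X' Y := by
  unfold Bf
  simp only [← Finset.sum_add_distrib]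
  refine Finset.sum_congr rfl fun a _ => Finset.sum_congr rfl fun b _ =>
    Finset.sum_congr rfl fun c _ => Finset.sum_congr rfl fun a' _ =>
    Finset.sum_congr rfl fun b' _ => Finset.sum_congr rfl fun c' _ => ?_
  ring

theorem Bf_add_right (σ : Matrix (Fin n) (Fin n) ℝ) (X Y Y' : Fin n → Fin n → Fin n → ℝ) :
    Bf σ X (fun a b c => Y a b c + Y' a b c) = Bf σ X Y + Bf σ X Y' := by
  unfold Bf
  simp only [← Finset.sum_add_distrib]
  refine Finset.sum_congr rfl fun a _ => Finset.sum_congr rfl fun b _ =>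
    Finset.sum_congr rfl fun c _ => Finset.sum_congr rfl fun a' _ =>
    Finset.sum_congr rfl fun b' _ => Finset.sum_congr rfl fun c' _ => ?_
  ring

/-- for `T` symmetric in the first two indices, `2 <T, P23 T> + |T|^2 ≥ 0` -/
theorem Bf_key {σ : Matrix (Fin n) (Fin n) ℝ} (hσ : σ.PosSemidef)
    (T : Fin n → Fin n → Fin n → ℝ) (hT : ∀ a b c, T a b c = T b a c) :
    0 ≤ Bf σ T T + 2 * Bf σ T (fun a b c => T a c b) := by
  have hTs : (fun a b c => T b a c) = T := by funext a b c; exact (hT a b c).symm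
  set U : Fin n → Fin n → Fin n → ℝ := fun a b c => T a c b with hU
  set W : Fin n → Fin n → Fin n → ℝ := fun a b c => T b c a with hW
  have h0 : 0 ≤ Bf σ (fun a b c => (T a b c + U a b c) + W a b c)
      (fun a b c => (T a b c + U a b c) + W a b c) := tensor3_nonneg hσ hσ hσ _
  have eUU : Bf σ U U = Bf σ T T := Bf_swap23 σ T T
  have eUT : Bf σ U T = Bf σ T U := by
    have := Bf_swap23 σ T U
    exact this
  have eW12 : (fun a b c => W b a c) = U := rfl
  have eW12' : (fun a b c => U b a c) = W := rfl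
  have eW23 : (fun a b c => W a c b) = W := by
    funext a b c
    show T c b a = T b c a
    exact hT c b a
  have eTW : Bf σ T W = Bf σ T U := by
    have := Bf_swap12 σ T U
    rw [hTs] at this
    exact this
  have eWT : Bf σ W T = Bf σ T U := by
    have := Bf_swap12 σ U T
    rw [hTs] at this
    exact this.trans eUT
  have eWW : Bf σ W W = Bf σ T T := (Bf_swap12 σ U U).trans eUU
  have eUW : Bf σ U W = Bf σ T U := by
    have := Bf_swap23 σ T W
    rw [eW23] at this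
    exact this.trans eTW
  have eWU : Bf σ W U = Bf σ T U := by
    have := Bf_swap23 σ W T
    rw [eW23] at this
    exact this.trans eWT
  rw [Bf_add_left, Bf_add_left, Bf_add_right, Bf_add_right, Bf_add_right, Bf_add_right,
    Bf_add_right, Bf_add_right, eUU, eUT, eTW, eWT, eWW, eUW, eWU] at h0
  linarith

/-- `W` in terms of the lowered tensor -/
theorem F4 {σ τ : Matrix (Fin n) (Fin n) ℝ} (hσ : σ.PosSemidef) (hs : ∀ a b, σ a b = σ b a)
    (hστ : σ * τ = 1) (hτs : ∀ a b, τ a b = τ b a) (W : Fin n → Fin n → Fin n → ℝ)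
    (hW : ∀ a b c, W a b c = W b a c) :
    0 ≤ tf σ σ τ W + 2 * ∑ a, ∑ f, ∑ g, ∑ c, σ a f * W a g c * W f c g := by
  have hτσ : τ * σ = 1 := mul_eq_one_comm.1 hστ
  set T : Fin n → Fin n → Fin n → ℝ := fun a b c => ∑ e, W a b e * τ e c with hT
  have hWT : ∀ a b c, W a b c = ∑ e, T a b e * σ e c := by
    intro a b c
    have h1 : ∑ e, T a b e * σ e c = ∑ d, W a b d * (τ * σ) d c := by
      simp only [hT, Finset.sum_mul, Matrix.mul_apply, Finset.mul_sum]
      rw [Finset.sum_comm]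
      refine Finset.sum_congr rfl fun d _ => Finset.sum_congr rfl fun e _ => ?_
      ring
    rw [h1, hτσ]
    simp [Matrix.one_apply]
  have hTs : ∀ a b c, T a b c = T b a c := by
    intro a b c
    simp only [hT]
    exact Finset.sum_congr rfl fun e _ => by rw [hW a b e]
  have e1 : tf σ σ τ W = Bf σ T T := by
    unfold tf Bf
    refine Finset.sum_congr rfl fun a _ => Finset.sum_congr rfl fun b _ => ?_
    rw [Finset.sum_comm]
    conv_rhs => rw [Finset.sum_comm]
    refine Finset.sum_congr rfl fun a' _ => ?_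
    rw [Finset.sum_comm]
    conv_rhs => rw [Finset.sum_comm]
    refine Finset.sum_congr rfl fun b' _ => ?_
    have h1 : ∑ c, ∑ c', σ a a' * σ b b' * τ c c' * W a b c * W a' b' c'
        = σ a a' * σ b b' * ∑ c', T a b c' * W a' b' c' := by
      simp only [hT, Finset.sum_mul, Finset.mul_sum]
      rw [Finset.sum_comm]
      refine Finset.sum_congr rfl fun c _ => Finset.sum_congr rfl fun d _ => ?_
      ring
    have h2 : ∑ c, ∑ c', σ a a' * σ b b' * σ c c' * T a b c * T a' b' c'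
        = σ a a' * σ b b' * ∑ c, T a b c * W a' b' c := by
      simp only [Finset.mul_sum]
      refine Finset.sum_congr rfl fun c _ => ?_
      rw [hWT a' b' c, Finset.mul_sum, Finset.mul_sum]
      refine Finset.sum_congr rfl fun d _ => ?_
      rw [hs d c]
      ring
    rw [h1, h2]
  have e2 : ∑ a, ∑ f, ∑ g, ∑ c, σ a f * W a g c * W f c g
      = Bf σ T (fun a b c => T a c b) := by
    unfold Bf
    refine Finset.sum_congr rfl fun a _ => ?_
    have hr : ∑ b, ∑ c, ∑ a', ∑ b', ∑ c', σ a a' * σ b b' * σ c c' * T a b c * T a' c' b'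
        = ∑ a', ∑ b, ∑ c, ∑ b', ∑ c', σ a a' * σ b b' * σ c c' * T a b c * T a' c' b' := by
      rw [Finset.sum_congr rfl fun b _ => Finset.sum_comm, Finset.sum_comm]
    rw [hr]
    refine Finset.sum_congr rfl fun f _ => ?_
    have hL : ∑ g, ∑ c, σ a f * W a g c * W f c g
        = ∑ g, ∑ c, ∑ e, ∑ h, σ a f * σ g h * σ e c * T a g e * T f c h := by
      refine Finset.sum_congr rfl fun g _ => Finset.sum_congr rfl fun c _ => ?_
      rw [hWT a g c, hWT f c g, mul_assoc, Finset.sum_mul_sum, Finset.mul_sum]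
      refine Finset.sum_congr rfl fun e _ => ?_
      rw [Finset.mul_sum]
      refine Finset.sum_congr rfl fun h _ => ?_
      rw [hs h g]
      ring
    rw [hL]
    refine Finset.sum_congr rfl fun g _ => ?_
    rw [Finset.sum_comm]
    refine Finset.sum_congr rfl fun e _ => ?_
    rw [Finset.sum_comm]
  rw [e1, e2]
  exact Bf_key hσ T hTs

/-- the closing squares -/
theorem F5 {H σ τ K : Matrix (Fin n) (Fin n) ℝ} (hH : H.PosSemidef) (hσ : σ.PosSemidef)
    (hστ : σ * τ = 1) (hτs : ∀ a b, τ a b = τ b a) (hK : ∀ a b, K a b = K b a) (r : ℝ) :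
    0 ≤ r ^ 2 * (H * τ).trace - 2 * r * (H * K).trace + (H * (K * σ * K)).trace := by
  have hτσ : τ * σ = 1 := mul_eq_one_comm.1 hστ
  have hY : (r • τ - K)ᵀ = r • τ - K := by
    ext a b
    simp only [Matrix.transpose_apply, Matrix.sub_apply, Matrix.smul_apply]
    rw [hτs b a, hK b a]
  have h := trace_HK_nonneg (H := H) (K := r • τ - K) (σ := σ) hH hσ hY
  have e : (r • τ - K) * σ * (r • τ - K) = r ^ 2 • τ - (2 * r) • K + K * σ * K := by
    have e1 : (r • τ - K) * σ = r • (1 : Matrix (Fin n) (Fin n) ℝ) - K * σ := by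
      rw [Matrix.sub_mul, Matrix.smul_mul, hτσ]
    have e2 : K * σ * τ = K := by rw [Matrix.mul_assoc, hστ, Matrix.mul_one]
    rw [e1, Matrix.sub_mul, Matrix.mul_sub, Matrix.mul_sub, Matrix.smul_mul, Matrix.one_mul,
      Matrix.smul_mul, Matrix.one_mul, Matrix.mul_smul, e2, smul_smul]
    have e3 : (2 * r) • K = r • K + r • K := by rw [← add_smul]; ring_nf
    rw [e3, pow_two]
    abel
  rw [e, Matrix.mul_add, Matrix.mul_sub, Matrix.mul_smul, Matrix.mul_smul, trace_add, trace_sub,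
    trace_smul, trace_smul, smul_eq_mul, smul_eq_mul] at h
  exact h

end Vale.Agent.P227.M.TG
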