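import Vale.Agent.P227.M.ID.AbsKey
import Vale.Agent.P227.M.TG.RobPt

/-!
# P227, route TG: the absorption lemma (ROB), abstract form

`S : Sys n A` (smooth system with potential `V_d`), `R = sum_j R_j` the true potential,
`|d_a (V_d - R)| ≤ η`. Then `2 E f w ≤ D2 + (1 + C η) E w²` for `w = L (L+1) v`.
-/

namespace Vale.Agent.P227.M.TG

open Finset Matrix Vale.Agent.P227.M.ID

variable {n : ℕ} {A : Type*} [CommRing A] [Algebra ℝ A]

/-- points of the system, positivity of `E`, bounds of `sg` -/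
structure Pt (S : Sys n A) (X : Type*) (c C : ℝ) where
  ev : X → A →ₐ[ℝ] ℝ
  pos : ∀ f, (∀ x, 0 ≤ ev x f) → 0 ≤ S.E f
  c_pos : 0 < c
  C_pos : 0 < C
  lo : ∀ x (v : Fin n → ℝ), c * ∑ a, v a ^ 2 ≤ qm (fun a b => ev x (S.sg a b)) v
  hi : ∀ x (v : Fin n → ℝ), qm (fun a b => ev x (S.sg a b)) v ≤ C * ∑ a, v a ^ 2

namespace Pt

variable {S : Sys n A} {X : Type*} {c C : ℝ} (P : Pt S X c C)

theorem mono {f g : A} (h : ∀ x, P.ev x f ≤ P.ev x g) : S.E f ≤ S.E g := by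
  have := P.pos (g - f) fun x => by rw [map_sub]; linarith [h x]
  rw [map_sub] at this
  linarith

/-- value of `sg` -/
def sm (x : X) : Matrix (Fin n) (Fin n) ℝ := fun a b => P.ev x (S.sg a b)

/-- value of a matrix over `A` -/
def evm (x : X) (M : Fin n → Fin n → A) : Matrix (Fin n) (Fin n) ℝ := fun a b => P.ev x (M a b)

/-- value of `t` -/
def tm (x : X) : Matrix (Fin n) (Fin n) ℝ := fun a b => P.ev x (S.t a b)

theorem sm_symm (x : X) (a b : Fin n) : P.sm x a b = P.sm x b a := by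
  unfold sm; rw [S.sg_symm]

theorem tm_symm (x : X) (a b : Fin n) : P.tm x a b = P.tm x b a := by
  unfold tm; rw [S.t_symm]

theorem sm_mul_tm (x : X) : P.sm x * P.tm x = 1 := by
  ext a b
  rw [Matrix.mul_apply]
  have h := congrArg (P.ev x) (S.sg_t a b)
  rw [map_sum] at h
  simp_rw [map_mul] at h
  unfold sm tm
  rw [h, Matrix.one_apply]
  by_cases hab : a = b
  · simp [hab]
  · simp [hab]

theorem sm_psd (x : X) : (P.sm x).PosSemidef := psd_of_lo P.c_pos.le (P.sm_symm x) (P.lo x)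

theorem sm_entry (x : X) (a b : Fin n) : |P.sm x a b| ≤ C :=
  entry_le (P.sm_symm x) (fun v => le_trans
    (mul_nonneg P.c_pos.le (Finset.sum_nonneg fun _ _ => sq_nonneg _)) (P.lo x v)) (P.hi x) a b

/-- `1/C ≤ tau` -/
theorem tm_lo (x : X) (v : Fin n → ℝ) : C⁻¹ * ∑ a, v a ^ 2 ≤ qm (P.tm x) v := by
  set y : Fin n → ℝ := fun a => ∑ b, P.tm x a b * v b with hy
  have hv : ∀ a, ∑ b, P.sm x a b * y b = v a := by
    intro a
    simp only [hy, Finset.mul_sum]
    rw [Finset.sum_comm]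
    have h1 : ∀ d, ∑ b, P.sm x a b * (P.tm x b d * v d) = (if a = d then 1 else 0) * v d := by
      intro d
      have h2 := congrFun (congrFun (P.sm_mul_tm x) a) d
      rw [Matrix.mul_apply, Matrix.one_apply] at h2
      rw [← h2, Finset.sum_mul]
      exact Finset.sum_congr rfl fun b _ => by ring
    rw [Finset.sum_congr rfl fun d _ => h1 d]
    simp
  have h0 : 0 ≤ qm (P.sm x) (fun a => y a - C⁻¹ * v a) :=
    le_trans (mul_nonneg P.c_pos.le (Finset.sum_nonneg fun _ _ => sq_nonneg _)) (P.lo x _)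
  have e1 : qm (P.sm x) (fun a => y a - C⁻¹ * v a)
      = (∑ a, y a * v a) - 2 * (C⁻¹ * ∑ a, v a ^ 2) + C⁻¹ ^ 2 * qm (P.sm x) v := by
    have e2 : qm (P.sm x) (fun a => y a - C⁻¹ * v a)
        = (∑ a, y a * ∑ b, P.sm x a b * y b) - C⁻¹ * (∑ a, v a * ∑ b, P.sm x a b * y b)
          - C⁻¹ * (∑ a, ∑ b, P.sm x a b * y a * v b) + C⁻¹ ^ 2 * qm (P.sm x) v := by
      unfold qm
      simp only [Finset.mul_sum, ← Finset.sum_sub_distrib, ← Finset.sum_add_distrib]
      exact Finset.sum_congr rfl fun a _ => Finset.sum_congr rfl fun b _ => by ring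
    have e3 : ∑ a, ∑ b, P.sm x a b * y a * v b = ∑ a, v a * ∑ b, P.sm x a b * y b := by
      rw [Finset.sum_comm]
      refine Finset.sum_congr rfl fun b _ => ?_
      rw [Finset.mul_sum]
      refine Finset.sum_congr rfl fun a _ => ?_
      rw [P.sm_symm x a b]; ring
    rw [e2, e3]
    simp_rw [hv]
    have e4 : ∑ a, v a * v a = ∑ a, v a ^ 2 := Finset.sum_congr rfl fun a _ => by ring
    rw [e4]
    ring
  have e5 : ∑ a, y a * v a = qm (P.tm x) v := by
    unfold qm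
    refine Finset.sum_congr rfl fun a _ => ?_
    simp only [hy, Finset.sum_mul]
    exact Finset.sum_congr rfl fun b _ => by ring
  have h2 : C⁻¹ ^ 2 * qm (P.sm x) v ≤ C⁻¹ * ∑ a, v a ^ 2 := by
    have hC := P.C_pos
    calc C⁻¹ ^ 2 * qm (P.sm x) v ≤ C⁻¹ ^ 2 * (C * ∑ a, v a ^ 2) :=
          mul_le_mul_of_nonneg_left (P.hi x v) (by positivity)
      _ = C⁻¹ * ∑ a, v a ^ 2 := by field_simp
  rw [e1, e5] at h0
  linarith

/-- `|E (G f g)| ≤ η/2 (E f² + E g²)` -/
theorem young {η : ℝ} {G : A} (hG : ∀ x, |P.ev x G| ≤ η) (f g : A) :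
    |S.E (G * f * g)| ≤ η / 2 * (S.E (f * f) + S.E (g * g)) := by
  have e : η / 2 * (S.E (f * f) + S.E (g * g)) = S.E ((η / 2) • (f * f + g * g)) := by
    rw [map_smul, map_add, smul_eq_mul]
  have key : ∀ x, |P.ev x (G * f * g)| ≤ P.ev x ((η / 2) • (f * f + g * g)) := by
    intro x
    rw [map_smul, map_add, map_mul, map_mul, map_mul, map_mul, smul_eq_mul, abs_mul, abs_mul]
    have h1 := hG x
    have h2 : |P.ev x f| * |P.ev x g| ≤ (P.ev x f * P.ev x f + P.ev x g * P.ev x g) / 2 := by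
      nlinarith [sq_nonneg (|P.ev x f| - |P.ev x g|), abs_mul_abs_self (P.ev x f),
        abs_mul_abs_self (P.ev x g)]
    have h3 : 0 ≤ |P.ev x f| * |P.ev x g| := by positivity
    calc |P.ev x G| * |P.ev x f| * |P.ev x g| = |P.ev x G| * (|P.ev x f| * |P.ev x g|) := by ring
      _ ≤ η * (|P.ev x f| * |P.ev x g|) := mul_le_mul_of_nonneg_right h1 h3
      _ ≤ η * ((P.ev x f * P.ev x f + P.ev x g * P.ev x g) / 2) :=
          mul_le_mul_of_nonneg_left h2 ((abs_nonneg _).trans h1)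
      _ = _ := by ring
  rw [e, abs_le]
  constructor
  · have : S.E (-((η / 2) • (f * f + g * g))) ≤ S.E (G * f * g) := P.mono fun x => by
      rw [map_neg]; linarith [neg_abs_le (P.ev x (G * f * g)), key x]
    rw [map_neg] at this
    exact this
  · exact P.mono fun x => (le_abs_self _).trans (key x)

include P in
theorem E_sq_nonneg (f : A) : 0 ≤ S.E (f * f) := P.pos _ fun x => by
  rw [map_mul]; exact mul_self_nonneg _

include P in
/-- raising an index: `sum_a |up X a|² ≤ n² C² sum |X|²` -/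
theorem E_up_sq (Y : Fin n → A) :
    ∑ a, S.E (S.up Y a * S.up Y a) ≤ (n : ℝ) ^ 2 * C ^ 2 * ∑ a, S.E (Y a * Y a) := by
  have h : ∀ a, S.E (S.up Y a * S.up Y a) ≤ (n : ℝ) * C ^ 2 * ∑ b, S.E (Y b * Y b) := by
    intro a
    have e : (n : ℝ) * C ^ 2 * ∑ b, S.E (Y b * Y b) = S.E (((n : ℝ) * C ^ 2) • ∑ b, Y b * Y b) := by
      rw [map_smul, map_sum, smul_eq_mul]
    rw [e]
    refine P.mono fun x => ?_
    rw [map_smul, map_sum, map_mul, smul_eq_mul]
    have e2 : P.ev x (S.up Y a) = ∑ b, P.sm x a b * P.ev x (Y b) := by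
      unfold Sys.up sm
      rw [map_sum]
      simp_rw [map_mul]
    rw [e2]
    simp_rw [map_mul]
    have h1 := Finset.sum_mul_sq_le_sq_mul_sq Finset.univ (fun b => P.sm x a b)
      (fun b => P.ev x (Y b))
    have h2 : ∑ b, P.sm x a b ^ 2 ≤ (n : ℝ) * C ^ 2 := by
      calc ∑ b, P.sm x a b ^ 2 ≤ ∑ _b : Fin n, C ^ 2 :=
            Finset.sum_le_sum fun b _ => by
              have := P.sm_entry x a b
              rw [← sq_abs]
              exact pow_le_pow_left₀ (abs_nonneg _) this 2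
        _ = (n : ℝ) * C ^ 2 := by simp
    calc (∑ b, P.sm x a b * P.ev x (Y b)) * ∑ b, P.sm x a b * P.ev x (Y b)
        = (∑ b, P.sm x a b * P.ev x (Y b)) ^ 2 := by ring
      _ ≤ (∑ b, P.sm x a b ^ 2) * ∑ b, P.ev x (Y b) ^ 2 := h1
      _ ≤ (n : ℝ) * C ^ 2 * ∑ b, P.ev x (Y b) ^ 2 :=
          mul_le_mul_of_nonneg_right h2 (Finset.sum_nonneg fun _ _ => sq_nonneg _)
      _ = _ := by simp_rw [pow_two]
  calc ∑ a, S.E (S.up Y a * S.up Y a) ≤ ∑ _a : Fin n, (n : ℝ) * C ^ 2 * ∑ b, S.E (Y b * Y b) :=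
        Finset.sum_le_sum fun a _ => h a
    _ = _ := by simp; ring

end Pt

/-! ### the identities for the difference of the potentials -/

section ids

variable (S : Sys n A) (R0 v : A)

/-- `G_b = V_b - d_b R0` -/
def Gd (b : Fin n) : A := S.V b - S.dd b R0

def T1t : ℝ := ∑ a, ∑ b, S.E (S.dd a (S.dd b R0) * S.s v a * S.s v b)

def T2t : ℝ := ∑ a, ∑ b, ∑ c, S.E (S.dd a (S.dd b R0) * S.J v a c * S.K v c b)

theorem dd_Gd (a b : Fin n) : S.dd a (Gd S R0 b) = S.H a b - S.dd a (S.dd b R0) := by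
  unfold Gd Sys.H
  rw [map_sub]

theorem sum_ds_mul (f : Fin n → A) (g : A) :
    ∑ a, S.ds a (f a * g) = (∑ a, S.ds a (f a)) * g - ∑ a, S.up f a * S.D a g := by
  have h1 : ∀ a, S.ds a (f a * g) = S.ds a (f a) * g - f a * S.dd a g := by
    intro a
    unfold Sys.ds
    rw [Derivation.leibniz]
    simp only [smul_eq_mul]
    ring
  have h2 : ∑ a, S.up f a * S.D a g = ∑ a, f a * S.dd a g := by
    rw [S.up_pair]
    exact sum_congr rfl fun a _ => by rw [S.dd_eq_up]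
  rw [h2, sum_mul, ← sum_sub_distrib]
  exact sum_congr rfl fun a _ => h1 a

theorem T1_diff : S.T1 v - T1t S R0 v = ∑ b, (S.E (Gd S R0 b * S.w v * S.s v b)
    - ∑ a, S.E (Gd S R0 b * S.up (S.s v) a * S.D a (S.s v b))) := by
  have h1 : S.T1 v - T1t S R0 v = ∑ b, ∑ a, S.E (S.dd a (Gd S R0 b) * (S.s v a * S.s v b)) := by
    unfold Sys.T1 T1t
    conv_rhs => rw [sum_comm]
    rw [← sum_sub_distrib]
    refine sum_congr rfl fun a _ => ?_
    rw [← sum_sub_distrib]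
    refine sum_congr rfl fun b _ => ?_
    rw [← map_sub, dd_Gd]
    congr 1
    ring
  rw [h1]
  refine sum_congr rfl fun b _ => ?_
  have h2 : ∑ a, S.E (S.dd a (Gd S R0 b) * (S.s v a * S.s v b))
      = S.E (Gd S R0 b * ∑ a, S.ds a (S.s v a * S.s v b)) := by
    rw [mul_sum, map_sum]
    exact sum_congr rfl fun a _ => S.E_ds a _ _
  rw [h2, sum_ds_mul, mul_sub, map_sub, mul_sum, map_sum]
  congr 1
  · congr 1
    unfold Sys.w
    ring
  · refine sum_congr rfl fun a _ => ?_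
    congr 1
    ring

theorem JK (a b : Fin n) : ∑ c, S.J v a c * S.K v c b = ∑ c, S.K v c a * S.J v b c := by
  have h1 : ∑ c, S.J v a c * S.K v c b = ∑ c, S.up (fun e => S.K v a e) c * S.K v c b :=
    sum_congr rfl fun c _ => by rw [S.J_up_K]
  rw [h1, S.up_pair]
  refine sum_congr rfl fun c _ => ?_
  have h2 : S.up (fun c => S.K v c b) c = S.J v b c := by
    have h3 : (fun c => S.K v c b) = fun c => S.K v b c := by funext e; exact S.K_symm v e b
    rw [h3, S.J_up_K]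
  rw [h2, S.K_symm v a c]

theorem T2_diff : S.T2 v - T2t S R0 v = ∑ b, ∑ c, (S.E (Gd S R0 b * S.s v c * S.J v b c)
    - ∑ a, S.E (Gd S R0 b * S.J v c a * S.W v a b c)) := by
  have h1 : S.T2 v - T2t S R0 v
      = ∑ b, ∑ c, ∑ a, S.E (S.dd a (Gd S R0 b) * (S.K v c a * S.J v b c)) := by
    have h3 : S.T2 v - T2t S R0 v
        = ∑ a, ∑ b, S.E (S.dd a (Gd S R0 b) * ∑ c, S.J v a c * S.K v c b) := by
      unfold Sys.T2 T2t
      rw [← sum_sub_distrib]
      refine sum_congr rfl fun a _ => ?_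
      rw [← sum_sub_distrib]
      refine sum_congr rfl fun b _ => ?_
      rw [← sum_sub_distrib, mul_sum, map_sum]
      refine sum_congr rfl fun c _ => ?_
      rw [← map_sub, dd_Gd]
      congr 1
      ring
    rw [h3, sum_comm]
    refine sum_congr rfl fun b _ => ?_
    conv_rhs => rw [sum_comm]
    refine sum_congr rfl fun a _ => ?_
    rw [JK, mul_sum, map_sum]
  rw [h1]
  refine sum_congr rfl fun b _ => sum_congr rfl fun c _ => ?_
  have h2 : ∑ a, S.E (S.dd a (Gd S R0 b) * (S.K v c a * S.J v b c))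
      = S.E (Gd S R0 b * ∑ a, S.ds a (S.K v c a * S.J v b c)) := by
    rw [mul_sum, map_sum]
    exact sum_congr rfl fun a _ => S.E_ds a _ _
  rw [h2, sum_ds_mul, S.sum_ds_K, mul_sub, map_sub, mul_sum, map_sum]
  congr 1
  · congr 1
    ring
  · refine sum_congr rfl fun a _ => ?_
    rw [S.J_up_K]
    congr 1
    unfold Sys.W Sys.J
    ring

end ids

/-! ### bounds -/

section bounds

variable (S : Sys n A) (v : A)

def om : ℝ := S.E (S.w v * S.w v)
def aa : ℝ := ∑ b, S.E (S.s v b * S.s v b)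
def zz : ℝ := ∑ a, S.E (S.up (S.s v) a * S.up (S.s v) a)
def ss : ℝ := ∑ a, ∑ b, S.E (S.D a (S.s v b) * S.D a (S.s v b))
def jj : ℝ := ∑ b, ∑ c, S.E (S.J v b c * S.J v b c)
def kk : ℝ := ∑ a, ∑ b, S.E (S.K v a b * S.K v a b)
def ww : ℝ := ∑ a, ∑ b, ∑ c, S.E (S.W v a b c * S.W v a b c)
def mm : ℝ := ∑ a, ∑ b, S.E (S.dd b (S.s v a) * S.dd a (S.s v b))
def qq : ℝ := S.E (S.Q2 v + S.Q1 v)

variable {S} {X : Type*} {c C : ℝ} (P : Pt S X c C) (R0 : A)

include P in
theorem T1_err {η : ℝ} (hη : ∀ x b, |P.ev x (Gd S R0 b)| ≤ η) :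
    |S.T1 v - T1t S R0 v| ≤ η / 2 * (n * om S v + aa S v + n * zz S v + ss S v) := by
  rw [T1_diff]
  have h : ∀ b, |S.E (Gd S R0 b * S.w v * S.s v b)
      - ∑ a, S.E (Gd S R0 b * S.up (S.s v) a * S.D a (S.s v b))|
      ≤ η / 2 * (om S v + S.E (S.s v b * S.s v b))
        + ∑ a, η / 2 * (S.E (S.up (S.s v) a * S.up (S.s v) a)
          + S.E (S.D a (S.s v b) * S.D a (S.s v b))) := by
    intro b
    refine (abs_sub _ _).trans (add_le_add (P.young (fun x => hη x b) _ _) ?_)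
    refine (Finset.abs_sum_le_sum_abs _ _).trans (Finset.sum_le_sum fun a _ => ?_)
    exact P.young (fun x => hη x b) _ _
  refine (Finset.abs_sum_le_sum_abs _ _).trans ((Finset.sum_le_sum fun b _ => h b).trans_eq ?_)
  have e1 : ∑ b, ∑ a, S.E (S.D a (S.s v b) * S.D a (S.s v b)) = ss S v := by
    unfold ss
    exact sum_comm
  simp only [Finset.sum_add_distrib, ← Finset.mul_sum, mul_add, Finset.sum_const, Finset.card_univ,
    Fintype.card_fin, nsmul_eq_mul]
  rw [e1]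
  unfold aa zz
  ring

include P in
theorem T2_err {η : ℝ} (hη : ∀ x b, |P.ev x (Gd S R0 b)| ≤ η) :
    |S.T2 v - T2t S R0 v| ≤ η / 2 * (n * aa S v + jj S v + n * jj S v + ww S v) := by
  rw [T2_diff]
  have h : ∀ b c, |S.E (Gd S R0 b * S.s v c * S.J v b c)
      - ∑ a, S.E (Gd S R0 b * S.J v c a * S.W v a b c)|
      ≤ η / 2 * (S.E (S.s v c * S.s v c) + S.E (S.J v b c * S.J v b c))
        + ∑ a, η / 2 * (S.E (S.J v c a * S.J v c a) + S.E (S.W v a b c * S.W v a b c)) := by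
    intro b c
    refine (abs_sub _ _).trans (add_le_add (P.young (fun x => hη x b) _ _) ?_)
    refine (Finset.abs_sum_le_sum_abs _ _).trans (Finset.sum_le_sum fun a _ => ?_)
    exact P.young (fun x => hη x b) _ _
  refine (Finset.abs_sum_le_sum_abs _ _).trans ((Finset.sum_le_sum fun b _ =>
    (Finset.abs_sum_le_sum_abs _ _).trans (Finset.sum_le_sum fun c _ => h b c)).trans_eq ?_)
  have e1 : ∑ b, ∑ c, ∑ a, S.E (S.W v a b c * S.W v a b c) = ww S v := by
    unfold ww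
    calc ∑ b, ∑ c, ∑ a, S.E (S.W v a b c * S.W v a b c)
        = ∑ b, ∑ a, ∑ c, S.E (S.W v a b c * S.W v a b c) :=
          sum_congr rfl fun b _ => sum_comm
      _ = _ := sum_comm
  simp only [Finset.sum_add_distrib, ← Finset.mul_sum, mul_add, Finset.sum_const, Finset.card_univ,
    Fintype.card_fin, nsmul_eq_mul]
  rw [e1]
  unfold aa jj
  ring

include P in
theorem zz_le : zz S v ≤ (n : ℝ) ^ 2 * C ^ 2 * aa S v := P.E_up_sq (S.s v)

include P in
theorem jj_le : jj S v ≤ (n : ℝ) ^ 2 * C ^ 2 * kk S v := by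
  unfold jj kk
  rw [Finset.mul_sum]
  refine Finset.sum_le_sum fun b _ => ?_
  have := P.E_up_sq (fun e => S.K v b e)
  simp_rw [S.J_up_K] at this
  exact this

include P in
theorem aa_le {c0 : ℝ} (hH : ∀ x (u : Fin n → ℝ),
    c0 * ∑ a, u a ^ 2 ≤ qm (fun a b => P.ev x (S.dd a (S.dd b R0))) u) :
    c0 * aa S v ≤ T1t S R0 v := by
  have e1 : c0 * aa S v = S.E (c0 • ∑ b, S.s v b * S.s v b) := by
    unfold aa
    rw [map_smul, map_sum, smul_eq_mul]
  have e2 : T1t S R0 v = S.E (∑ a, ∑ b, S.dd a (S.dd b R0) * S.s v a * S.s v b) := by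
    unfold T1t
    simp only [map_sum]
  rw [e1, e2]
  refine P.mono fun x => ?_
  have h := hH x (fun a => P.ev x (S.s v a))
  rw [map_smul, smul_eq_mul]
  simp only [map_sum, map_mul]
  unfold qm at h
  simp_rw [pow_two] at h
  exact h

include P in
theorem ss_le : c ^ 2 * ss S v ≤ mm S v := by
  have e1 : c ^ 2 * ss S v = S.E ((c ^ 2) • ∑ a, ∑ b, S.D a (S.s v b) * S.D a (S.s v b)) := by
    unfold ss
    rw [map_smul, smul_eq_mul]
    simp only [map_sum]
  have e2 : mm S v = S.E (∑ a, ∑ b, S.dd b (S.s v a) * S.dd a (S.s v b)) := by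
    unfold mm
    simp only [map_sum]
  rw [e1, e2]
  refine P.mono fun x => ?_
  have h := F1 (σ := P.sm x) (S := P.evm x (fun a b => S.D a (S.s v b))) P.c_pos.le (P.sm_symm x)
    (P.lo x) (fun a b => by
      show P.ev x (S.D a (S.s v b)) = P.ev x (S.D b (S.s v a))
      rw [S.s_symm])
  rw [map_smul, smul_eq_mul]
  simp only [map_sum, map_mul]
  have e3 : ∀ a b, P.ev x (S.dd a (S.s v b))
      = (P.sm x * P.evm x (fun a b => S.D a (S.s v b))) a b := by
    intro a b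
    rw [S.dd_apply, map_sum, Matrix.mul_apply]
    exact sum_congr rfl fun d _ => by rw [map_mul]; rfl
  simp_rw [e3]
  rw [trace_mul_sum] at h
  simp_rw [pow_two] at h
  rw [pow_two]
  refine h.trans_eq (sum_congr rfl fun a _ => sum_congr rfl fun b _ => mul_comm _ _)

theorem ev_K_conj (x : X) (a b : Fin n) : ∑ d, P.ev x (S.J v a d) * P.ev x (S.K v d b)
    = (P.evm x (S.K v) * P.sm x * P.evm x (S.K v)) a b := by
  rw [Matrix.mul_apply]
  refine sum_congr rfl fun d _ => ?_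
  congr 1
  rw [← S.J_up_K, Matrix.mul_apply]
  unfold Sys.up
  rw [map_sum]
  refine sum_congr rfl fun e _ => ?_
  rw [map_mul, S.sg_symm d e]
  exact mul_comm _ _

include P in
theorem kk_le {c0 : ℝ} (hc0 : 0 ≤ c0) (hs : ∀ a b, S.dd a (S.dd b R0) = S.dd b (S.dd a R0))
    (hH : ∀ x (u : Fin n → ℝ),
    c0 * ∑ a, u a ^ 2 ≤ qm (fun a b => P.ev x (S.dd a (S.dd b R0))) u) :
    c0 * c * kk S v ≤ T2t S R0 v := by
  have e1 : c0 * c * kk S v = S.E ((c0 * c) • ∑ a, ∑ b, S.K v a b * S.K v a b) := by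
    unfold kk
    rw [map_smul, smul_eq_mul]
    simp only [map_sum]
  have e2 : T2t S R0 v
      = S.E (∑ a, ∑ b, ∑ c, S.dd a (S.dd b R0) * S.J v a c * S.K v c b) := by
    unfold T2t
    simp only [map_sum]
  rw [e1, e2]
  refine P.mono fun x => ?_
  have h := F2 (σ := P.sm x) (H := P.evm x (fun a b => S.dd a (S.dd b R0)))
    (K := P.evm x (S.K v)) P.c_pos.le hc0 (P.sm_symm x) (P.lo x)
    (fun a b => by
      show P.ev x (S.dd a (S.dd b R0)) = P.ev x (S.dd b (S.dd a R0))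
      rw [hs a b]) (hH x) (fun a b => by
      show P.ev x (S.K v a b) = P.ev x (S.K v b a)
      rw [S.K_symm])
  rw [map_smul, smul_eq_mul]
  simp only [map_sum, map_mul]
  rw [trace_mul_sum] at h
  have e3 : ∀ a b, ∑ d, P.ev x (S.dd a (S.dd b R0)) * P.ev x (S.J v a d) * P.ev x (S.K v d b)
      = P.ev x (S.dd a (S.dd b R0)) * (P.evm x (S.K v) * P.sm x * P.evm x (S.K v)) b a := by
    intro a b
    have e4 := ev_K_conj v P x b a
    have e5 : ∑ d, P.ev x (S.J v b d) * P.ev x (S.K v d a)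
        = ∑ d, P.ev x (S.J v a d) * P.ev x (S.K v d b) := by
      have h5 := congrArg (P.ev x) (JK S v a b)
      have h6 : ∑ d, S.K v d a * S.J v b d = ∑ d, S.J v b d * S.K v d a :=
        sum_congr rfl fun d _ => mul_comm _ _
      rw [h6] at h5
      simp only [map_sum, map_mul] at h5
      exact h5.symm
    rw [← e4, e5, mul_sum]
    exact sum_congr rfl fun d _ => by ring
  simp_rw [e3]
  simp_rw [pow_two] at h
  exact h

theorem ev_Q1 (x : X) : P.ev x (S.Q1 v)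
    = tf (P.sm x) (P.sm x) (P.tm x) (fun a b c => P.ev x (S.W v a b c)) := by
  unfold Sys.Q1 Sys.SW Sys.up Sys.lo tf
  simp only [map_sum, map_mul]
  rw [sum_comm]
  refine sum_congr rfl fun a _ => sum_congr rfl fun b _ => sum_congr rfl fun c _ => ?_
  simp only [mul_sum]
  refine sum_congr rfl fun a' _ => sum_congr rfl fun b' _ => sum_congr rfl fun c' _ => ?_
  unfold Pt.sm Pt.tm
  ring

theorem ev_Q2 (x : X) : P.ev x (S.Q2 v)
    = ∑ a, ∑ f, ∑ g, ∑ c, P.sm x a f * P.ev x (S.W v a g c) * P.ev x (S.W v f c g) := by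
  unfold Sys.Q2 Sys.up
  simp only [map_sum, map_mul]
  refine sum_congr rfl fun a _ => ?_
  conv_rhs => rw [sum_comm]
  refine sum_congr rfl fun b _ => ?_
  conv_rhs => rw [sum_comm]
  refine sum_congr rfl fun c _ => ?_
  rw [mul_sum]
  refine sum_congr rfl fun f _ => ?_
  rw [S.W_symm v b a c]
  unfold Pt.sm
  ring

include P in
theorem ww_le : c ^ 2 * C⁻¹ * ww S v ≤ 2 * qq S v := by
  have e1 : c ^ 2 * C⁻¹ * ww S v
      = S.E ((c ^ 2 * C⁻¹) • ∑ a, ∑ b, ∑ d, S.W v a b d * S.W v a b d) := by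
    unfold ww
    rw [map_smul, smul_eq_mul]
    simp only [map_sum]
  have e2 : 2 * qq S v = S.E ((2 : ℝ) • (S.Q2 v + S.Q1 v)) := by
    unfold qq
    rw [map_smul, smul_eq_mul]
  rw [e1, e2]
  refine P.mono fun x => ?_
  have h3 := F3 (σ := P.sm x) (τ := P.tm x) P.c_pos.le (inv_pos.2 P.C_pos).le (P.sm_symm x)
    (P.lo x) (P.tm_symm x) (P.tm_lo x) (fun a b d => P.ev x (S.W v a b d))
  have h4 := F4 (P.sm_psd x) (P.sm_symm x) (P.sm_mul_tm x) (P.tm_symm x)
    (fun a b d => P.ev x (S.W v a b d)) (fun a b d => by rw [S.W_symm])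
  rw [map_smul, map_smul, map_add, smul_eq_mul, smul_eq_mul, ev_Q1, ev_Q2]
  simp only [map_sum, map_mul]
  simp_rw [pow_two] at h3 ⊢
  linarith

include P in
theorem Q3_nonneg : 0 ≤ S.E (S.Q3 v) := by
  refine P.pos _ fun x => ?_
  have h := sum_sig_nonneg (σ := P.sm x)
    (S := fun b c => P.ev x (S.D b (S.s v c)) - P.ev x (S.K v b c)) (P.sm_psd x) (by
      intro a b
      show P.ev x (S.D a (S.s v b)) - P.ev x (S.K v a b)
        = P.ev x (S.D b (S.s v a)) - P.ev x (S.K v b a)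
      rw [S.s_symm v a b, S.K_symm v a b])
  refine h.trans_eq ?_
  unfold Sys.Q3 Sys.up
  simp only [map_sum, map_mul, map_sub]
  refine sum_congr rfl fun a _ => ?_
  rw [sum_comm]
  refine sum_congr rfl fun c _ => ?_
  rw [sum_mul_sum]
  refine sum_congr rfl fun b _ => sum_congr rfl fun d _ => ?_
  unfold Pt.sm
  ring

end bounds

/-! ### absorption -/

/-- the constant -/
noncomputable def robK (n : ℕ) (c C c0 : ℝ) : ℝ :=
  (n + 1 / c0 + n ^ 3 * C ^ 2 / c0 + 1 / c ^ 2 + n / c0 + (n + 1) * n ^ 2 * C ^ 2 / (c0 * c)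
    + 2 * C / c ^ 2) / 2

theorem robK_nonneg {c C c0 : ℝ} (hc : 0 < c) (hC : 0 < C) (h0 : 0 < c0) :
    0 ≤ robK n c C c0 := by
  unfold robK
  positivity

/-- the scalar inequality -/
theorem absorb {om m T1 T2 T1t T2t q e3 t : ℝ} (hq : 0 ≤ q) (he : 0 ≤ e3) (hom : 0 ≤ om) (ht : 0 ≤ t) (ht2 : t ≤ 1 / 2)
    (e1 : om = m + T1) (e2 : om = T1 + T2 + e3 + q)
    (b1 : |T1 - T1t| ≤ t * (om + T1t + m)) (b2 : |T2 - T2t| ≤ t * (T1t + T2t + q)) :
    T1t + T2t ≤ (1 + 10 * t) * om := by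
  have h1 : T1t - T1 ≤ t * (om + T1t + m) := by linarith [neg_abs_le (T1 - T1t)]
  have h2 : T2t - T2 ≤ t * (T1t + T2t + q) := by linarith [neg_abs_le (T2 - T2t)]
  have s : 0 < 1 - t := by linarith
  have h3 : (1 - t) * (m + T1t) ≤ (1 + t) * om := by nlinarith
  have h4 : (1 - t) * (T1t + T2t) ≤ m + T1t := by nlinarith
  have h5 : (1 - t) ^ 2 * (T1t + T2t) ≤ (1 + t) * om := by
    calc (1 - t) ^ 2 * (T1t + T2t) = (1 - t) * ((1 - t) * (T1t + T2t)) := by ring
      _ ≤ (1 - t) * (m + T1t) := mul_le_mul_of_nonneg_left h4 s.le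
      _ ≤ _ := h3
  have h6 : (1 + t) * om ≤ (1 - t) ^ 2 * ((1 + 10 * t) * om) := by
    have : 0 ≤ t * (1 - 2 * t) * (7 - 5 * t) * om := by
      have a1 : 0 ≤ 1 - 2 * t := by linarith
      have a2 : 0 ≤ 7 - 5 * t := by linarith
      positivity
    nlinarith
  exact le_of_mul_le_mul_left (h5.trans h6) (by positivity)

theorem comb {h t k1 k2 k3 X a b d : ℝ} (hh : 0 ≤ h) (h1 : h * k1 ≤ t) (h2 : h * k2 ≤ t)
    (h3 : h * k3 ≤ t) (ha : 0 ≤ a) (hb : 0 ≤ b) (hd : 0 ≤ d)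
    (hX : X ≤ k1 * a + k2 * b + k3 * d) : h * X ≤ t * (a + b + d) := by
  calc h * X ≤ h * (k1 * a + k2 * b + k3 * d) := mul_le_mul_of_nonneg_left hX hh
    _ = h * k1 * a + h * k2 * b + h * k3 * d := by ring
    _ ≤ t * a + t * b + t * d :=
        add_le_add (add_le_add (mul_le_mul_of_nonneg_right h1 ha)
          (mul_le_mul_of_nonneg_right h2 hb)) (mul_le_mul_of_nonneg_right h3 hd)
    _ = _ := by ring

theorem robK_parts {c C c0 η : ℝ} (hc : 0 < c) (hC : 0 < C) (h0 : 0 < c0) (hη : 0 ≤ η) :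
    η / 2 * n ≤ robK n c C c0 * η ∧
    η / 2 * (1 / c0 + n ^ 3 * C ^ 2 / c0) ≤ robK n c C c0 * η ∧
    η / 2 * (1 / c ^ 2) ≤ robK n c C c0 * η ∧
    η / 2 * (n / c0) ≤ robK n c C c0 * η ∧
    η / 2 * ((n + 1) * n ^ 2 * C ^ 2 / (c0 * c)) ≤ robK n c C c0 * η ∧
    η / 2 * (2 * C / c ^ 2) ≤ robK n c C c0 * η := by
  have n1 : (0 : ℝ) ≤ n := by positivity
  have n2 : 0 ≤ 1 / c0 := by positivity
  have n3 : 0 ≤ n ^ 3 * C ^ 2 / c0 := by positivity
  have n4 : 0 ≤ 1 / c ^ 2 := by positivity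
  have n5 : 0 ≤ n / c0 := by positivity
  have n6 : 0 ≤ (n + 1) * n ^ 2 * C ^ 2 / (c0 * c) := by positivity
  have n7 : 0 ≤ 2 * C / c ^ 2 := by positivity
  have key : ∀ k : ℝ, k ≤ 2 * robK n c C c0 → η / 2 * k ≤ robK n c C c0 * η := by
    intro k hk
    calc η / 2 * k ≤ η / 2 * (2 * robK n c C c0) := mul_le_mul_of_nonneg_left hk (by positivity)
      _ = _ := by ring
  have e : 2 * robK n c C c0 = n + 1 / c0 + n ^ 3 * C ^ 2 / c0 + 1 / c ^ 2 + n / c0
      + (n + 1) * n ^ 2 * C ^ 2 / (c0 * c) + 2 * C / c ^ 2 := by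
    unfold robK
    ring
  rw [e] at key
  exact ⟨key _ (by linarith), key _ (by linarith), key _ (by linarith), key _ (by linarith),
    key _ (by linarith), key _ (by linarith)⟩

theorem scal1 {c C c0 η om aa zz ss T m e : ℝ} (hc : 0 < c) (hC : 0 < C) (h0 : 0 < c0)
    (hη : 0 ≤ η) (hom : 0 ≤ om) (hT : 0 ≤ T) (hm : 0 ≤ m) (Haa : c0 * aa ≤ T)
    (Hzz : zz ≤ n ^ 2 * C ^ 2 * aa) (Hss : c ^ 2 * ss ≤ m)
    (H : e ≤ η / 2 * (n * om + aa + n * zz + ss)) : e ≤ robK n c C c0 * η * (om + T + m) := by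
  have Haa' : aa ≤ T / c0 := by rw [le_div_iff₀ h0]; linarith
  have Hss' : ss ≤ m / c ^ 2 := by rw [le_div_iff₀ (by positivity)]; linarith
  have Hzz' : zz ≤ n ^ 2 * C ^ 2 * (T / c0) :=
    Hzz.trans (mul_le_mul_of_nonneg_left Haa' (by positivity))
  obtain ⟨p1, p2, p3, -, -, -⟩ := robK_parts (n := n) hc hC h0 hη
  refine H.trans (comb (by positivity) p1 p2 p3 hom hT hm ?_)
  have a2 : n * zz ≤ n ^ 3 * C ^ 2 / c0 * T :=
    (mul_le_mul_of_nonneg_left Hzz' (Nat.cast_nonneg n)).trans_eq (by ring)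
  have a3 : T / c0 = 1 / c0 * T := by ring
  have a4 : m / c ^ 2 = 1 / c ^ 2 * m := by ring
  rw [a3] at Haa'
  rw [a4] at Hss'
  rw [add_mul]
  linarith

theorem scal2 {c C c0 η aa jj kk ww T T' q e : ℝ} (hc : 0 < c) (hC : 0 < C) (h0 : 0 < c0)
    (hη : 0 ≤ η) (hT : 0 ≤ T) (hT' : 0 ≤ T') (hq : 0 ≤ q) (Haa : c0 * aa ≤ T)
    (Hjj : jj ≤ n ^ 2 * C ^ 2 * kk) (Hkk : c0 * c * kk ≤ T') (Hww : c ^ 2 * C⁻¹ * ww ≤ 2 * q)
    (H : e ≤ η / 2 * (n * aa + jj + n * jj + ww)) : e ≤ robK n c C c0 * η * (T + T' + q) := by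
  have Haa' : aa ≤ T / c0 := by rw [le_div_iff₀ h0]; linarith
  have Hkk' : kk ≤ T' / (c0 * c) := by rw [le_div_iff₀ (by positivity)]; linarith
  have Hww' : ww ≤ 2 * C / c ^ 2 * q := by
    have e : c ^ 2 * C⁻¹ * (2 * C / c ^ 2 * q) = 2 * q := by field_simp
    have p : 0 < c ^ 2 * C⁻¹ := by positivity
    exact le_of_mul_le_mul_left (Hww.trans_eq e.symm) p
  have Hjj' : jj ≤ n ^ 2 * C ^ 2 * (T' / (c0 * c)) :=
    Hjj.trans (mul_le_mul_of_nonneg_left Hkk' (by positivity))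
  obtain ⟨-, -, -, p4, p5, p6⟩ := robK_parts (n := n) hc hC h0 hη
  refine H.trans (comb (by positivity) p4 p5 p6 hT hT' hq ?_)
  have a2 : (n + 1) * jj ≤ (n + 1) * n ^ 2 * C ^ 2 / (c0 * c) * T' :=
    (mul_le_mul_of_nonneg_left Hjj' (by positivity)).trans_eq (by ring)
  have a3 : n * aa ≤ n / c0 * T :=
    (mul_le_mul_of_nonneg_left Haa' (Nat.cast_nonneg n)).trans_eq (by ring)
  linarith

section final

variable {S : Sys n A} {X : Type*} {c C : ℝ} (P : Pt S X c C) (v : A)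

include P in
/-- the absorption of the error of the potentials -/
theorem absorb_T (R0 : A) {c0 η : ℝ} (h0 : 0 < c0) (hη0 : 0 ≤ η)
    (hη : ∀ x b, |P.ev x (Gd S R0 b)| ≤ η)
    (hH : ∀ x (u : Fin n → ℝ),
      c0 * ∑ a, u a ^ 2 ≤ qm (fun a b => P.ev x (S.dd a (S.dd b R0))) u)
    (ht : robK n c C c0 * η ≤ 1 / 2) :
    T1t S R0 v + T2t S R0 v ≤ (1 + 10 * (robK n c C c0 * η)) * om S v := by
  have hc := P.c_pos
  have hC := P.C_pos
  have naa : 0 ≤ aa S v := Finset.sum_nonneg fun b _ => P.E_sq_nonneg _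
  have nss : 0 ≤ ss S v := Finset.sum_nonneg fun a _ => Finset.sum_nonneg fun b _ =>
    P.E_sq_nonneg _
  have nkk : 0 ≤ kk S v := Finset.sum_nonneg fun a _ => Finset.sum_nonneg fun b _ =>
    P.E_sq_nonneg _
  have nww : 0 ≤ ww S v := Finset.sum_nonneg fun a _ => Finset.sum_nonneg fun b _ =>
    Finset.sum_nonneg fun d _ => P.E_sq_nonneg _
  have nom : 0 ≤ om S v := P.E_sq_nonneg _
  have Haa := aa_le v P R0 hH
  have Hss := ss_le v P
  have Hkk := kk_le v P R0 h0.le (fun a b => S.dd_comm a b R0) hH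
  have Hww := ww_le v P
  have nT1t : 0 ≤ T1t S R0 v := le_trans (mul_nonneg h0.le naa) Haa
  have nT2t : 0 ≤ T2t S R0 v := le_trans (mul_nonneg (mul_nonneg h0.le hc.le) nkk) Hkk
  have nmm : 0 ≤ mm S v := le_trans (mul_nonneg (sq_nonneg c) nss) Hss
  have nqq : 0 ≤ qq S v := by
    have : 0 ≤ c ^ 2 * C⁻¹ * ww S v :=
      mul_nonneg (mul_nonneg (sq_nonneg c) (inv_nonneg.2 hC.le)) nww
    linarith
  have B1 := scal1 hc hC h0 hη0 nom nT1t nmm Haa (zz_le v P) Hss (T1_err v P R0 hη)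
  have B2 := scal2 hc hC h0 hη0 nT1t nT2t nqq Haa (jj_le v P) Hkk Hww (T2_err v P R0 hη)
  exact absorb nqq (Q3_nonneg v P) nom (mul_nonneg (robK_nonneg hc hC h0) hη0) ht
    (S.E_w_sq v) (S.main v) B1 B2

/-- the second derivative term of one potential -/
def D2 (S : Sys n A) (r : A) : ℝ :=
  S.E (S.rad r) + ∑ b, ∑ c, S.E (S.dd b (S.dd c r) * S.x c * S.x b)

include P in
/-- completing the squares for one convex potential -/
theorem close1 (r : A) (ρ : ℝ)
    (hr : ∀ x, Matrix.PosSemidef (P.evm x fun a b => S.dd a (S.dd b r))) :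
    2 * ρ * S.E (S.rad r * S.w v) ≤ ρ ^ 2 * D2 S r + T1t S r v + T2t S r v := by
  have g1 : 0 ≤ ρ ^ 2 * S.E (S.rad r) - 2 * ρ * (∑ b, ∑ c, S.E (S.dd c (S.dd b r) * S.K v b c))
      + T2t S r v := by
    have e : ρ ^ 2 * S.E (S.rad r) - 2 * ρ * (∑ b, ∑ c, S.E (S.dd c (S.dd b r) * S.K v b c))
        + T2t S r v = S.E (ρ ^ 2 • (∑ b, ∑ c, S.dd c (S.dd b r) * S.t b c)
          - (2 * ρ) • (∑ b, ∑ c, S.dd c (S.dd b r) * S.K v b c)
          + ∑ a, ∑ b, ∑ c, S.dd a (S.dd b r) * S.J v a c * S.K v c b) := by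
      rw [S.E_rad]
      unfold T2t
      simp only [map_add, map_sub, map_smul, map_sum, smul_eq_mul]
    rw [e]
    refine P.pos _ fun x => ?_
    have h := F5 (hr x) (P.sm_psd x) (P.sm_mul_tm x) (P.tm_symm x) (K := P.evm x (S.K v))
      (fun a b => by
        show P.ev x (S.K v a b) = P.ev x (S.K v b a)
        rw [S.K_symm]) ρ
    refine h.trans_eq ?_
    simp only [map_add, map_sub, map_smul, map_sum, map_mul, smul_eq_mul]
    rw [trace_mul_sum, trace_mul_sum, trace_mul_sum]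
    congr 1
    · congr 1
      · congr 1
        rw [sum_comm]
        rfl
      · congr 1
        rw [sum_comm]
        rfl
    · refine sum_congr rfl fun a _ => sum_congr rfl fun b _ => ?_
      rw [← ev_K_conj v P x b a]
      have e5 : ∑ d, P.ev x (S.J v b d) * P.ev x (S.K v d a)
          = ∑ d, P.ev x (S.J v a d) * P.ev x (S.K v d b) := by
        have h5 := congrArg (P.ev x) (JK S v a b)
        have h6 : ∑ d, S.K v d a * S.J v b d = ∑ d, S.J v b d * S.K v d a :=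
          sum_congr rfl fun d _ => mul_comm _ _
        rw [h6] at h5
        simp only [map_sum, map_mul] at h5
        exact h5.symm
      rw [e5, mul_sum]
      refine sum_congr rfl fun d _ => ?_
      rw [mul_assoc]
      rfl
  have g2 : 0 ≤ ρ ^ 2 * (∑ b, ∑ c, S.E (S.dd b (S.dd c r) * S.x c * S.x b))
      - 2 * ρ * (∑ b, ∑ c, S.E (S.dd b (S.dd c r) * S.x c * S.s v b)) + T1t S r v := by
    have e0 : ∑ b, ∑ c, S.dd b (S.dd c r) * S.s v c * S.x b
        = ∑ b, ∑ c, S.dd b (S.dd c r) * S.x c * S.s v b := by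
      rw [sum_comm]
      refine sum_congr rfl fun a _ => sum_congr rfl fun b _ => ?_
      rw [S.dd_comm b a]
      ring
    have e : ρ ^ 2 * (∑ b, ∑ c, S.E (S.dd b (S.dd c r) * S.x c * S.x b))
      - 2 * ρ * (∑ b, ∑ c, S.E (S.dd b (S.dd c r) * S.x c * S.s v b)) + T1t S r v
        = S.E (∑ a, ∑ b, S.dd a (S.dd b r) * (ρ • S.x a - S.s v a) * (ρ • S.x b - S.s v b)) := by
      have e1 : ∑ a, ∑ b, S.dd a (S.dd b r) * (ρ • S.x a - S.s v a) * (ρ • S.x b - S.s v b)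
          = ρ ^ 2 • (∑ b, ∑ c, S.dd b (S.dd c r) * S.x c * S.x b)
            - ρ • (∑ b, ∑ c, S.dd b (S.dd c r) * S.x c * S.s v b)
            - ρ • (∑ b, ∑ c, S.dd b (S.dd c r) * S.s v c * S.x b)
            + ∑ a, ∑ b, S.dd a (S.dd b r) * S.s v a * S.s v b := by
        simp only [smul_sum, ← sum_sub_distrib, ← sum_add_distrib]
        refine sum_congr rfl fun a _ => sum_congr rfl fun b _ => ?_
        simp only [Algebra.smul_def, map_pow]
        ring
      rw [e1, e0]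
      unfold T1t
      simp only [map_add, map_sub, map_smul, map_sum, smul_eq_mul]
      ring
    rw [e]
    refine P.pos _ fun x => ?_
    have h := sum_H_nonneg (hr x) (fun a => P.ev x (ρ • S.x a - S.s v a))
    refine h.trans_eq ?_
    simp only [map_sum, map_mul]
    rfl
  have g3 := S.E_rad_w v r
  unfold D2
  rw [g3]
  linarith

/-- linearity of `T1t` -/
theorem T1t_sum {J : Type*} [Fintype J] (R : J → A) :
    T1t S (∑ j, R j) v = ∑ j, T1t S (R j) v := by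
  unfold T1t
  simp only [map_sum, sum_mul]
  conv_rhs => rw [sum_comm]
  refine sum_congr rfl fun a _ => ?_
  conv_rhs => rw [sum_comm]

/-- linearity of `T2t` -/
theorem T2t_sum {J : Type*} [Fintype J] (R : J → A) :
    T2t S (∑ j, R j) v = ∑ j, T2t S (R j) v := by
  unfold T2t
  simp only [map_sum, sum_mul]
  conv_rhs => rw [sum_comm]
  refine sum_congr rfl fun a _ => ?_
  conv_rhs => rw [sum_comm]
  refine sum_congr rfl fun b _ => ?_
  conv_rhs => rw [sum_comm]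

include P in
/-- completing the squares -/
theorem close_all {J : Type*} [Fintype J] (R : J → A) (ρ : J → ℝ)
    (hr : ∀ j x, Matrix.PosSemidef (P.evm x fun a b => S.dd a (S.dd b (R j)))) :
    2 * S.E ((∑ j, ρ j • S.rad (R j)) * S.w v) ≤
      ∑ j, ρ j ^ 2 * D2 S (R j) + (T1t S (∑ j, R j) v + T2t S (∑ j, R j) v) := by
  rw [T1t_sum, T2t_sum, ← sum_add_distrib, ← sum_add_distrib, sum_mul, map_sum, mul_sum]
  refine Finset.sum_le_sum fun j _ => ?_
  have h := close1 P v (R j) (ρ j) (hr j)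
  rw [smul_mul_assoc, map_smul, smul_eq_mul]
  linarith

include P in
/-- ABSORPTION LEMMA (ROB): the pairing inequality with the potentials `R_j`, if the potential of
the system is within `η` of `sum_j R_j` in `C^1`. -/
theorem rob {J : Type*} [Fintype J] (R : J → A) (ρ : J → ℝ) {c0 η : ℝ} (h0 : 0 < c0)
    (hη0 : 0 ≤ η)
    (hr : ∀ j x, Matrix.PosSemidef (P.evm x fun a b => S.dd a (S.dd b (R j))))
    (hH : ∀ x (u : Fin n → ℝ),
      c0 * ∑ a, u a ^ 2 ≤ qm (fun a b => P.ev x (S.dd a (S.dd b (∑ j, R j)))) u)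
    (hη : ∀ x b, |P.ev x (S.V b - S.dd b (∑ j, R j))| ≤ η)
    (ht : robK n c C c0 * η ≤ 1 / 2) (v : A) :
    2 * S.E ((∑ j, ρ j • S.rad (R j)) * S.w v) ≤
      ∑ j, ρ j ^ 2 * D2 S (R j) + (1 + 10 * (robK n c C c0 * η)) * S.E (S.w v * S.w v) := by
  have h1 := close_all P v R ρ hr
  have h2 := absorb_T P v (∑ j, R j) h0 hη0 hη hH ht
  unfold om at h2
  linarith

end final

end Vale.Agent.P227.M.TG
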